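import Vale.Agent.P181.GN.H89.Q7
import Vale.Agent.P181.GN.H820.FD

set_option autoImplicit false

/-!
# P181, GN [Q7]: the slack, the literal
-/

open MvPolynomial

namespace Vale.Agent.P181.GN.H89

variable {k : ℕ}

lemma UH_mono {P Q : (Lt k →₀ ℕ) → Prop} (h : ∀ v, P v → Q v) : UH P ≤ UH Q :=
  fun _ hf => ⟨fun v hv => h v (hf.1 v hv), hf.2⟩

/-- The joint map. -/
noncomputable def Big {tau : Fin k → ℕ} {Z y m0 : ℕ} (hZ : Z + y + ∑ i, tau i + 4 ≤ m0) :
    UH (gEL tau (Z : ℤ)) →ₗ[ℂ]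
      (((Fin (Z + 1) × Fin (∑ i, tau i + 1)) × Ix Z) → UH (gSL tau y m0)) :=
  LinearMap.pi fun x => LinearMap.codRestrict (UH (gSL tau y m0))
    ((Op Z y m0 ((x.1.1 : ℕ), (x.1.2 : ℕ)) x.2) ∘ₗ (UH (gEL tau (Z : ℤ))).subtype)
    fun f => Op_mem hZ _ _ f.1 f.2

theorem main (k y m0 Z : ℕ) (tau : Fin (k + 1) → ℕ) (h2 : 2 ≤ tau 0)
    (hZ : Z + y + ∑ i, tau i + 4 ≤ m0) :
    EL tau (Z : ℤ) ≤ 2 * (m0 + ∑ i, tau i + 2) ^ 4 * Module.finrank ℂ (UH (gSL tau y m0)) := by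
  haveI : FiniteDimensional ℂ (UH (gPP tau y m0)) := (H820.fd (k + 1) y m0 tau 0).1
  haveI : FiniteDimensional ℂ (UH (gSL tau y m0)) :=
    Submodule.finiteDimensional_of_le (S₂ := UH (gPP tau y m0)) (UH_mono fun v hv =>
      ⟨fun p hp => (hv.1.1 p hp).1, hv.1.2.1, hv.1.2.2⟩)
  have hinj : Function.Injective (Big hZ) := by
    rw [injective_iff_map_eq_zero]
    rintro ⟨f, hf⟩ h
    apply Subtype.ext
    apply Op_inj (y := y) (m0 := m0) h2 f hf
    intro c hc1 hc2 x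
    have h3 := congrFun h ((⟨c.1, by omega⟩, ⟨c.2, by omega⟩), x)
    exact congrArg Subtype.val h3
  have h1 := LinearMap.finrank_le_finrank_of_injective hinj
  rw [Module.finrank_pi_fintype, Finset.sum_const, smul_eq_mul, Finset.card_univ,
    Fintype.card_prod, Fintype.card_prod, Fintype.card_sum, Fintype.card_prod, Fintype.card_fin,
    Fintype.card_fin, Fintype.card_fin] at h1
  refine h1.trans (Nat.mul_le_mul_right _ ?_)
  set W := m0 + ∑ i, tau i + 2 with hW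
  have a1 : Z + 1 ≤ W := by omega
  have a2 : ∑ i, tau i + 1 ≤ W := by omega
  have a3 : Z + 3 ≤ W := by omega
  have a4 : Z + 3 + (Z + 3) * (Z + 3) ≤ 2 * (W * W) := by nlinarith
  calc (Z + 1) * (∑ i, tau i + 1) * (Z + 3 + (Z + 3) * (Z + 3)) ≤ W * W * (2 * (W * W)) :=
        Nat.mul_le_mul (Nat.mul_le_mul a1 a2) a4
    _ = 2 * W ^ 4 := by ring

/-- **[Q7]** -/
theorem q7 : Q7 := by
  intro k y m0 tau z h2 hz
  rcases le_or_gt 0 z with h0 | h0
  · obtain ⟨Z, rfl⟩ := Int.eq_ofNat_of_zero_le h0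
    apply main k y m0 Z tau h2
    have h3 : ((Z + y + ∑ i, tau i + 4 : ℕ) : ℤ) ≤ (m0 : ℤ) := by
      push_cast
      push_cast at hz
      exact hz
    exact_mod_cast h3
  · have h3 : UH (gEL tau z) = ⊥ := by
      rw [eq_bot_iff]
      intro f hf
      rw [Submodule.mem_bot]
      ext v
      rw [coeff_zero]
      by_contra hv
      have h4 := (hf.1 v hv).2.1
      have h5 : (0 : ℤ) ≤ (xs v : ℤ) := Int.natCast_nonneg _
      omega
    unfold EL
    rw [h3, finrank_bot]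
    exact Nat.zero_le _

end Vale.Agent.P181.GN.H89
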