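import Mathlib

set_option autoImplicit false

/-!
# P181, GN [Q7]: letters and operators, general part
-/

open MvPolynomial

namespace Vale.Agent.P181.GN.H89

section Gen

variable {L : Type}

/-- The derivation `X l ↦ c l * X (rep l)`. -/
noncomputable def mv (c : L → ℂ) (rep : L → L) :
    Derivation ℂ (MvPolynomial L ℂ) (MvPolynomial L ℂ) :=
  mkDerivation ℂ fun l => C (c l) * X (rep l)

lemma mv_X (c : L → ℂ) (rep : L → L) (l : L) : mv c rep (X l) = C (c l) * X (rep l) :=
  mkDerivation_X _ _ _

lemma mv_support (c : L → ℂ) (rep : L → L) (f : MvPolynomial L ℂ) (v : L →₀ ℕ)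
    (h : coeff v (mv c rep f) ≠ 0) : ∃ (u : L →₀ ℕ) (l : L), c l ≠ 0 ∧
      v = u + Finsupp.single (rep l) 1 ∧ coeff (u + Finsupp.single l 1) f ≠ 0 := by
  classical
  rw [MvPolynomial.as_sum f, map_sum, coeff_sum] at h
  obtain ⟨s, hs, hs2⟩ := Finset.exists_ne_zero_of_sum_ne_zero h
  rw [mv, mkDerivation_monomial, coeff_smul, Finsupp.sum, coeff_sum, smul_eq_mul] at hs2
  obtain ⟨l, hl, hl2⟩ := Finset.exists_ne_zero_of_sum_ne_zero (right_ne_zero_of_mul hs2)
  rw [smul_eq_mul, X, C_mul_monomial, monomial_mul, coeff_monomial] at hl2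
  split_ifs at hl2 with h1
  · have hc : c l ≠ 0 := by
      intro h0
      apply hl2
      rw [h0]
      ring
    have hsl : s - Finsupp.single l 1 + Finsupp.single l 1 = s := by
      apply tsub_add_cancel_of_le
      rw [Finsupp.single_le_iff]
      exact Nat.one_le_iff_ne_zero.2 (Finsupp.mem_support_iff.1 hl)
    refine ⟨s - Finsupp.single l 1, l, hc, h1.symm, ?_⟩
    rw [hsl]
    exact mem_support_iff.1 hs
  · exact absurd rfl hl2

/-- The components of a polynomial killed by a derivation which preserves the weight. -/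
lemma comp_kill {M : Type} [AddCancelCommMonoid M] (w : L → M) (c : L → ℂ) (rep : L → L)
    (hw : ∀ l, c l ≠ 0 → w (rep l) = w l) (f : MvPolynomial L ℂ) (hf : mv c rep f = 0) (x : M) :
    mv c rep (weightedHomogeneousComponent w x f) = 0 := by
  classical
  set g := weightedHomogeneousComponent w x f with hg
  have h1 : mv c rep g = - mv c rep (f - g) := by
    rw [map_sub, hf, zero_sub, neg_neg]
  ext v
  rw [coeff_zero]
  by_contra hv
  obtain ⟨u, l, hc, hu, h2⟩ := mv_support c rep g v hv
  have hv' : coeff v (mv c rep (f - g)) ≠ 0 := by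
    intro h0
    apply hv
    rw [h1, coeff_neg, h0, neg_zero]
  obtain ⟨u', l', hc', hu', h2'⟩ := mv_support c rep (f - g) v hv'
  have e1 : Finsupp.weight w (u + Finsupp.single l 1) = x := by
    by_contra hne
    apply h2
    rw [hg, coeff_weightedHomogeneousComponent, if_neg hne]
  have e2 : Finsupp.weight w (u' + Finsupp.single l' 1) ≠ x := by
    intro he
    apply h2'
    rw [coeff_sub, hg, coeff_weightedHomogeneousComponent, if_pos he, sub_self]
  apply e2
  have e3 : Finsupp.weight w (u' + Finsupp.single l' 1) = Finsupp.weight w v := by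
    rw [hu', map_add, map_add, Finsupp.weight_single, Finsupp.weight_single, hw l' hc']
  have e4 : Finsupp.weight w (u + Finsupp.single l 1) = Finsupp.weight w v := by
    rw [hu, map_add, map_add, Finsupp.weight_single, Finsupp.weight_single, hw l hc]
  rw [e3, ← e4, e1]

/-- Division by a monomial as a linear map. -/
noncomputable def divL (s : L →₀ ℕ) : MvPolynomial L ℂ →ₗ[ℂ] MvPolynomial L ℂ where
  toFun f := f.divMonomial s
  map_add' f g := add_divMonomial f g s
  map_smul' c f := by
    ext v
    simp only [RingHom.id_apply, coeff_smul, coeff_divMonomial]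

lemma coeff_divL (s : L →₀ ℕ) (f : MvPolynomial L ℂ) (v : L →₀ ℕ) :
    coeff v (divL s f) = coeff (s + v) f := rfl

lemma mul_divL (s : L →₀ ℕ) (f : MvPolynomial L ℂ) (h : ∀ v, coeff v f ≠ 0 → s ≤ v) :
    monomial s 1 * divL s f = f := by
  have h1 : f.modMonomial s = 0 := by
    ext v
    rw [coeff_zero]
    by_cases hv : s ≤ v
    · exact coeff_modMonomial_of_le f hv
    · rw [coeff_modMonomial_of_not_le f hv]
      by_contra hne
      exact hv (h v hne)
  have h2 := divMonomial_add_modMonomial f s
  rw [h1, add_zero] at h2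
  exact h2

lemma divL_kill (c : L → ℂ) (rep : L → L) (l : L) (hl : c l = 0) (k : ℕ) (f : MvPolynomial L ℂ)
    (h : ∀ v, coeff v f ≠ 0 → Finsupp.single l k ≤ v) (hf : mv c rep f = 0) :
    mv c rep (divL (Finsupp.single l k) f) = 0 := by
  have h1 := mul_divL _ f h
  have h2 : (monomial (Finsupp.single l k) (1 : ℂ) : MvPolynomial L ℂ) = X l ^ k := by
    rw [X_pow_eq_monomial]
  rw [h2] at h1
  have h3 : mv c rep (X l ^ k) = 0 := by
    rw [Derivation.leibniz_pow, mv_X, hl, C_0, zero_mul, smul_zero, smul_zero]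
  rw [← h1, Derivation.leibniz, h3, smul_zero, add_zero, smul_eq_mul] at hf
  exact (mul_eq_zero.1 hf).resolve_left (pow_ne_zero _ (X_ne_zero _))

lemma mv_rename {L' : Type} (s : L → L') (c : L → ℂ) (rep : L → L) (c' : L' → ℂ)
    (rep' : L' → L') (hc : ∀ l, c' (s l) = c l) (hr : ∀ l, c l ≠ 0 → rep' (s l) = s (rep l))
    (f : MvPolynomial L ℂ) : mv c' rep' (rename s f) = rename s (mv c rep f) := by
  induction f using MvPolynomial.induction_on with
  | C a => rw [rename_C, derivation_C, derivation_C, map_zero]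
  | add p q hp hq => rw [map_add, map_add, map_add, map_add, hp, hq]
  | mul_X p l hp =>
    rw [map_mul, rename_X, Derivation.leibniz, Derivation.leibniz, hp, mv_X, mv_X, hc,
      map_add, smul_eq_mul, smul_eq_mul, smul_eq_mul, smul_eq_mul, map_mul, map_mul, map_mul,
      rename_X, rename_C]
    by_cases h : c l = 0
    · rw [h, C_0, zero_mul, zero_mul, mul_zero, rename_X]
    · rw [hr l h, rename_X]

lemma mv_comm (c : L → ℂ) (rep : L → L) (d : L → ℂ) (sep : L → L)
    (h : ∀ l, mv c rep (mv d sep (X l)) = mv d sep (mv c rep (X l))) (f : MvPolynomial L ℂ) :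
    mv c rep (mv d sep f) = mv d sep (mv c rep f) := by
  have h1 : ⁅mv c rep, mv d sep⁆ = 0 := by
    apply MvPolynomial.derivation_ext
    intro l
    rw [Derivation.commutator_apply, h l, sub_self]
    rfl
  have h2 := Derivation.congr_fun h1 f
  rw [Derivation.commutator_apply] at h2
  exact sub_eq_zero.1 h2

end Gen

end Vale.Agent.P181.GN.H89
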