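import Vale.Agent.P181.GN.Defs
import Vale.Agent.P181.GN.H89.Op

set_option autoImplicit false

/-!
# P181, GN [Q7]: monomials, the shift, the operators `D1`, `D2`
-/

open MvPolynomial

namespace Vale.Agent.P181.GN.H89

variable {k : ℕ}

lemma xs_add (u v : Lt k →₀ ℕ) : xs (u + v) = xs u + xs v := by
  unfold xs
  exact Finsupp.sum_add_index' (fun _ => zero_mul _) (fun _ _ _ => add_mul _ _ _)

lemma xs_single (p : Lt k) (n : ℕ) : xs (Finsupp.single p n) = n * p.1 := by
  unfold xs
  exact Finsupp.sum_single_index (zero_mul _)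

lemma us_add (u v : Lt k →₀ ℕ) (i : Fin k) : us (u + v) i = us u i + us v i := by
  unfold us
  exact Finsupp.sum_add_index' (fun _ => zero_mul _) (fun _ _ _ => add_mul _ _ _)

lemma us_single (p : Lt k) (n : ℕ) (i : Fin k) : us (Finsupp.single p n) i = n * p.2 i := by
  unfold us
  exact Finsupp.sum_single_index (zero_mul _)

lemma ln_add (u v : Lt k →₀ ℕ) : ln (u + v) = ln u + ln v := by
  unfold ln
  exact Finsupp.sum_add_index' (fun _ => rfl) (fun _ _ _ => rfl)

lemma ln_single (p : Lt k) (n : ℕ) : ln (Finsupp.single p n) = n := by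
  unfold ln
  exact Finsupp.sum_single_index rfl

lemma xs_zero : xs (0 : Lt k →₀ ℕ) = 0 := rfl
lemma us_zero (i : Fin k) : us (0 : Lt k →₀ ℕ) i = 0 := rfl
lemma ln_zero : ln (0 : Lt k →₀ ℕ) = 0 := rfl

/-- The weight: the number of letters `(1, 0)` and the number of coloured letters. -/
def wt (p : Lt k) : ℕ × ℕ := (if p = (1, 0) then 1 else 0, if p.2 = 0 then 0 else 1)

/-- The number of coloured letters. -/
noncomputable def cl (v : Lt k →₀ ℕ) : ℕ := (Finsupp.weight wt v).2

lemma cl_add (u v : Lt k →₀ ℕ) : cl (u + v) = cl u + cl v := by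
  unfold cl
  rw [map_add]
  rfl

lemma cl_single (p : Lt k) (n : ℕ) :
    cl (Finsupp.single p n) = n * (if p.2 = 0 then 0 else 1) := by
  unfold cl
  rw [Finsupp.weight_single]
  rfl

lemma wt_fst (v : Lt k →₀ ℕ) : (Finsupp.weight wt v).1 = v (1, 0) := by
  induction v using Finsupp.induction_linear with
  | zero => simp
  | add f g hf hg => rw [map_add, Prod.fst_add, hf, hg, Finsupp.add_apply]
  | single p n =>
    rw [Finsupp.weight_single, Finsupp.single_apply]
    show n • (if p = (1, 0) then 1 else 0) = _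
    split_ifs with h <;> simp

lemma le_xs (v : Lt k →₀ ℕ) (p : Lt k) : v p * p.1 ≤ xs v := by
  have h : v = Finsupp.single p (v p) + v.erase p := (Finsupp.single_add_erase p v).symm
  have h2 := congrArg xs h
  rw [xs_add, xs_single] at h2
  omega

lemma le_us (v : Lt k →₀ ℕ) (p : Lt k) (i : Fin k) : v p * p.2 i ≤ us v i := by
  have h : v = Finsupp.single p (v p) + v.erase p := (Finsupp.single_add_erase p v).symm
  have h2 := congrArg (fun x => us x i) h
  simp only [us_add, us_single] at h2
  omega

lemma le_ln (v : Lt k →₀ ℕ) (p : Lt k) : v p ≤ ln v := by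
  have h : v = Finsupp.single p (v p) + v.erase p := (Finsupp.single_add_erase p v).symm
  have h2 := congrArg ln h
  rw [ln_add, ln_single] at h2
  omega

lemma one_le_sum {a : Fin k → ℕ} (h : a ≠ 0) : 1 ≤ ∑ i, a i := by
  by_contra hc
  apply h
  funext i
  have h1 : a i ≤ ∑ i, a i := Finset.single_le_sum (fun _ _ => Nat.zero_le _) (Finset.mem_univ i)
  show a i = 0
  omega

lemma cl_le (v : Lt k →₀ ℕ) : cl v ≤ ∑ i, us v i := by
  induction v using Finsupp.induction_linear with
  | zero => simp [cl]
  | add f g hf hg =>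
    rw [cl_add]
    have h : ∑ i, us (f + g) i = ∑ i, us f i + ∑ i, us g i := by
      rw [← Finset.sum_add_distrib]
      exact Finset.sum_congr rfl fun i _ => us_add f g i
    omega
  | single p n =>
    rw [cl_single]
    have h : ∑ i, us (Finsupp.single p n) i = n * ∑ i, p.2 i := by
      rw [Finset.mul_sum]
      exact Finset.sum_congr rfl fun i _ => us_single p n i
    rw [h]
    apply Nat.mul_le_mul_left
    split_ifs with h0
    · exact Nat.zero_le _
    · exact one_le_sum h0

/-- The shift. -/
def sh (p : Lt k) : Lt k := (if p.2 = 0 then p.1 + 1 else p.1 + 2, p.2)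

lemma sh_snd (p : Lt k) : (sh p).2 = p.2 := rfl

lemma sh_inj : Function.Injective (sh (k := k)) := by
  intro p q h
  have h2 : p.2 = q.2 := by
    have h3 : (sh p).2 = (sh q).2 := by rw [h]
    exact h3
  have h1 : (if p.2 = 0 then p.1 + 1 else p.1 + 2) = if q.2 = 0 then q.1 + 1 else q.1 + 2 := by
    have h3 : (sh p).1 = (sh q).1 := by rw [h]
    exact h3
  rw [h2] at h1
  refine Prod.ext ?_ h2
  split_ifs at h1 <;> omega

lemma xs_sh (u : Lt k →₀ ℕ) : xs (u.mapDomain sh) = xs u + ln u + cl u := by
  induction u using Finsupp.induction_linear with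
  | zero => simp [xs_zero, ln_zero, cl]
  | add f g hf hg =>
    rw [Finsupp.mapDomain_add, xs_add, xs_add, ln_add, cl_add, hf, hg]
    ring
  | single p n =>
    rw [Finsupp.mapDomain_single, xs_single, xs_single, ln_single, cl_single]
    unfold sh
    split_ifs <;> simp only [] <;> ring

lemma us_sh (u : Lt k →₀ ℕ) (i : Fin k) : us (u.mapDomain sh) i = us u i := by
  induction u using Finsupp.induction_linear with
  | zero => simp [us_zero]
  | add f g hf hg => rw [Finsupp.mapDomain_add, us_add, us_add, hf, hg]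
  | single p n => rw [Finsupp.mapDomain_single, us_single, us_single, sh_snd]

lemma ln_sh (u : Lt k →₀ ℕ) : ln (u.mapDomain sh) = ln u := by
  induction u using Finsupp.induction_linear with
  | zero => simp [ln_zero]
  | add f g hf hg => rw [Finsupp.mapDomain_add, ln_add, ln_add, hf, hg]
  | single p n => rw [Finsupp.mapDomain_single, ln_single, ln_single]

/-! ### Raising operators -/

/-- the move of the raising operator. -/
def rp (r i : Fin k) (p : Lt k) : Lt k := (p.1, p.2 - Pi.single i 1 + Pi.single r 1)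

lemma EU_eq (r i : Fin k) : EU r i = mv (fun p : Lt k => (p.2 i : ℂ)) (rp r i) := by
  unfold EU mv
  congr 1
  funext p
  rw [smul_eq_C_mul]
  rfl

lemma sum_rp {r i : Fin k} {a : Fin k → ℕ} (h : a i ≠ 0) :
    ∑ s, (a - Pi.single i 1 + Pi.single r 1 : Fin k → ℕ) s = ∑ s, a s := by
  have h1 : a = (a - Pi.single i 1) + Pi.single i 1 := by
    funext s
    simp only [Pi.add_apply, Pi.sub_apply]
    by_cases hs : s = i
    · subst hs
      rw [Pi.single_eq_same]
      omega
    · rw [Pi.single_eq_of_ne hs]
      omega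
  have h2 : ∀ (b : Fin k → ℕ) (s : Fin k), ∑ t, (b + Pi.single s 1 : Fin k → ℕ) t =
      ∑ t, b t + 1 := by
    intro b s
    simp only [Pi.add_apply]
    rw [Finset.sum_add_distrib, Finset.sum_pi_single']
    simp
  rw [h2]
  conv_rhs => rw [h1]
  rw [h2]

lemma rp_snd_ne {r i : Fin k} {p : Lt k} : (rp r i p).2 ≠ 0 := by
  intro h
  have h1 := congrFun h r
  unfold rp at h1
  simp only [Pi.add_apply, Pi.single_eq_same, Pi.zero_apply] at h1
  omega

lemma snd_ne {i : Fin k} {p : Lt k} (h : (p.2 i : ℂ) ≠ 0) : p.2 ≠ 0 := by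
  intro h0
  apply h
  rw [h0]
  simp

lemma wt_rp (r i : Fin k) (p : Lt k) (h : (p.2 i : ℂ) ≠ 0) : wt (rp r i p) = wt p := by
  have h1 := snd_ne h
  have h2 : (rp r i p).2 ≠ 0 := rp_snd_ne
  unfold wt
  rw [if_neg h1, if_neg h2, if_neg, if_neg]
  · intro h0
    exact h1 (by rw [h0])
  · intro h0
    exact h2 (by rw [h0])

lemma sh_rp (r i : Fin k) (p : Lt k) (h : (p.2 i : ℂ) ≠ 0) : rp r i (sh p) = sh (rp r i p) := by
  have h1 := snd_ne h
  have h2 : (rp r i p).2 ≠ 0 := rp_snd_ne
  unfold sh
  rw [if_neg h1, if_neg h2]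
  rfl

/-- The derivation `(j, α) ↦ (0, α)`, `|α| ≥ 2`. -/
noncomputable def D1 (j : ℕ) : Derivation ℂ (Po k) (Po k) :=
  mv (fun p => if p.1 = j ∧ 2 ≤ ∑ i, p.2 i then 1 else 0) (fun p => (0, p.2))

lemma EU_D1 (r i : Fin k) (j : ℕ) (f : Po k) : EU r i (D1 j f) = D1 j (EU r i f) := by
  rw [EU_eq]
  unfold D1
  apply mv_comm
  intro l
  rw [mv_X, mv_X]
  have hC : ∀ (D : Derivation ℂ (Po k) (Po k)) (a : ℂ) (g : Po k), D (C a * g) = C a * D g := by
    intro D a g
    rw [C_mul', Derivation.map_smul, C_mul']
  rw [hC, hC, mv_X, mv_X]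
  by_cases h : l.2 i = 0
  · have h1 : ((l.2 i : ℕ) : ℂ) = 0 := by rw [h]; simp
    simp only [h1, C_0, zero_mul, mul_zero]
  · have h2 : ∑ s, (rp r i l).2 s = ∑ s, l.2 s := sum_rp h
    have h3 : (rp r i l).1 = l.1 := rfl
    simp only [h2, h3]
    have h4 : rp r i ((0, l.2) : Lt k) = (0, (rp r i l).2) := rfl
    rw [h4]
    ring

lemma pd_EU (r i : Fin k) (hri : r ≠ i) (j : ℕ) (s : Fin k) (f : Po k) :
    pderiv (j, Pi.single s 1) (EU r i f) - EU r i (pderiv (j, Pi.single s 1) f) =
      if s = r then pderiv (j, Pi.single i 1) f else 0 := by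
  have key : ⁅(pderiv (j, Pi.single s 1) : Derivation ℂ (Po k) (Po k)), EU r i⁆ =
      if s = r then (pderiv (j, Pi.single i 1) : Derivation ℂ (Po k) (Po k)) else 0 := by
    apply MvPolynomial.derivation_ext
    intro l
    rw [Derivation.commutator_apply, EU_eq, mv_X, C_mul', Derivation.map_smul, pderiv_X]
    have h0 : mv (fun p : Lt k => (p.2 i : ℂ)) (rp r i)
        (pderiv ((j, Pi.single s 1) : Lt k) (X l : Po k)) = 0 := by
      rw [pderiv_X]
      by_cases h : (j, Pi.single s 1) = l
      · subst h
        rw [Pi.single_eq_same]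
        exact Derivation.map_one_eq_zero _
      · rw [Pi.single_eq_of_ne' h]
        exact map_zero _
    rw [h0, sub_zero]
    by_cases hs : s = r
    · rw [if_pos hs]
      subst hs
      rw [pderiv_X]
      by_cases h1 : l = (j, Pi.single i 1)
      · have h2 : rp s i l = (j, Pi.single s 1) := by
          rw [h1]
          unfold rp
          simp
        rw [h2, Pi.single_eq_same, h1, Pi.single_eq_same]
        simp
      · rw [Pi.single_eq_of_ne h1]
        by_cases h2 : rp s i l = (j, Pi.single s 1)
        · have h3 : l.2 i = 0 := by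
            by_contra h3
            apply h1
            have h2' : (rp s i l).1 = j := by rw [h2]
            refine Prod.ext h2' ?_
            have h4 : (rp s i l).2 = Pi.single s 1 := by rw [h2]
            funext t
            have h5 := congrFun h4 t
            unfold rp at h5
            simp only [Pi.add_apply, Pi.sub_apply, add_eq_right] at h5
            show l.2 t = (Pi.single i 1 : Fin k → ℕ) t
            by_cases ht : t = i
            · subst ht
              rw [Pi.single_eq_same] at h5 ⊢
              omega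
            · rw [Pi.single_eq_of_ne ht] at h5 ⊢
              omega
          rw [h3]
          simp
        · rw [Pi.single_eq_of_ne h2, smul_zero]
    · rw [if_neg hs]
      show _ = (0 : Po k)
      by_cases h2 : rp r i l = (j, Pi.single s 1)
      · exfalso
        have h4' : (rp r i l).2 = Pi.single s 1 := by rw [h2]
        have h4 := congrFun h4' r
        unfold rp at h4
        simp only [Pi.add_apply, Pi.sub_apply, Pi.single_eq_same] at h4
        rw [Pi.single_eq_of_ne (Ne.symm hs)] at h4
        omega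
      · rw [Pi.single_eq_of_ne h2, smul_zero]
  have h := Derivation.congr_fun key f
  rw [Derivation.commutator_apply] at h
  rw [h]
  split_ifs <;> rfl

end Vale.Agent.P181.GN.H89
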