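import Vale.Agent.P181.GN.H89.Mon

set_option autoImplicit false

/-!
# P181, GN [Q7]: the slack
-/

open MvPolynomial

namespace Vale.Agent.P181.GN.H89

variable {k : ℕ}

/-- the letter `(j, e_s)`. -/
abbrev le1 (j : ℕ) (s : Fin k) : Lt k := (j, Pi.single s 1)

/-- the letter `(0, e_s + e_t)`. -/
def le2 (s t : Fin k) : Lt k := (0, Pi.single s 1 + Pi.single t 1)

lemma le2_comm (s t : Fin k) : le2 s t = le2 t s := by
  unfold le2
  rw [add_comm]

/-- The operator `(j, e_s) (j', e_t) ↦ (0, e_s + e_t)`. -/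
noncomputable def D2 (j j' : ℕ) : Po k →ₗ[ℂ] Po k :=
  ∑ s : Fin k, ∑ t : Fin k, (LinearMap.mulLeft ℂ (X (le2 s t) : Po k)) ∘ₗ
    (pderiv (R := ℂ) (le1 j s)).toLinearMap ∘ₗ (pderiv (R := ℂ) (le1 j' t)).toLinearMap

lemma D2_apply (j j' : ℕ) (f : Po k) : D2 j j' f =
    ∑ s : Fin k, ∑ t : Fin k, X (le2 s t) * pderiv (le1 j s) (pderiv (le1 j' t) f) := by
  unfold D2
  rw [LinearMap.sum_apply]
  refine Finset.sum_congr rfl fun s _ => ?_
  rw [LinearMap.sum_apply]
  rfl

lemma EU_le2 (r i : Fin k) (hri : r ≠ i) (s t : Fin k) : EU r i (X (le2 s t) : Po k) =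
    (if s = i then X (le2 r t) else 0) + (if t = i then X (le2 s r) else 0) := by
  rw [EU_eq, mv_X]
  by_cases hs : s = i
  · subst hs
    by_cases ht : t = s
    · subst ht
      rw [if_pos rfl, if_pos rfl]
      have h1 : ((le2 t t).2 t) = 2 := by
        unfold le2
        simp
      have h2 : rp r t (le2 t t) = le2 r t := by
        unfold rp le2
        refine Prod.ext rfl ?_
        show (Pi.single t 1 + Pi.single t 1 : Fin k → ℕ) - Pi.single t 1 + Pi.single r 1 =
          Pi.single r 1 + Pi.single t 1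
        rw [add_tsub_cancel_right, add_comm]
      rw [h1, h2, le2_comm t r, Nat.cast_ofNat, ← two_mul]
      congr 1
    · rw [if_pos rfl, if_neg ht, add_zero]
      have h1 : ((le2 s t).2 s) = 1 := by
        unfold le2
        simp only [Pi.add_apply, Pi.single_eq_same]
        rw [Pi.single_eq_of_ne (Ne.symm ht), add_zero]
      have h2 : rp r s (le2 s t) = le2 r t := by
        unfold rp le2
        refine Prod.ext rfl ?_
        show (Pi.single s 1 + Pi.single t 1 : Fin k → ℕ) - Pi.single s 1 + Pi.single r 1 =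
          Pi.single r 1 + Pi.single t 1
        rw [add_tsub_cancel_left, add_comm]
      rw [h1, h2, Nat.cast_one, C_1, one_mul]
  · rw [if_neg hs, zero_add]
    by_cases ht : t = i
    · subst ht
      rw [if_pos rfl]
      have h1 : ((le2 s t).2 t) = 1 := by
        unfold le2
        simp only [Pi.add_apply, Pi.single_eq_same]
        rw [Pi.single_eq_of_ne (Ne.symm hs)]
      have h2 : rp r t (le2 s t) = le2 s r := by
        unfold rp le2
        refine Prod.ext rfl ?_
        show (Pi.single s 1 + Pi.single t 1 : Fin k → ℕ) - Pi.single t 1 + Pi.single r 1 =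
          Pi.single s 1 + Pi.single r 1
        rw [add_tsub_cancel_right]
      rw [h1, h2, Nat.cast_one, C_1, one_mul]
    · rw [if_neg ht]
      have h1 : ((le2 s t).2 i) = 0 := by
        unfold le2
        simp only [Pi.add_apply]
        rw [Pi.single_eq_of_ne (Ne.symm hs), Pi.single_eq_of_ne (Ne.symm ht), add_zero]
      rw [h1, Nat.cast_zero, C_0, zero_mul]

lemma EU_pd (r i : Fin k) (hri : r ≠ i) (j : ℕ) (s : Fin k) (f : Po k) :
    EU r i (pderiv (le1 j s) f) = pderiv (le1 j s) (EU r i f) -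
      if s = r then pderiv (le1 j i) f else 0 := by
  rw [← pd_EU r i hri j s f]
  ring

lemma EU_D2 (r i : Fin k) (hri : r ≠ i) (j j' : ℕ) (f : Po k) (hf : EU r i f = 0) :
    EU r i (D2 j j' f) = 0 := by
  rw [D2_apply, map_sum]
  have h1 : ∀ s t : Fin k, EU r i (X (le2 s t) * pderiv (le1 j s) (pderiv (le1 j' t) f)) =
      ((if s = i then X (le2 r t) * pderiv (le1 j s) (pderiv (le1 j' t) f) else 0) +
        (if t = i then X (le2 s r) * pderiv (le1 j s) (pderiv (le1 j' t) f) else 0)) -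
      ((if s = r then X (le2 s t) * pderiv (le1 j i) (pderiv (le1 j' t) f) else 0) +
        (if t = r then X (le2 s t) * pderiv (le1 j s) (pderiv (le1 j' i) f) else 0)) := by
    intro s t
    rw [Derivation.leibniz, EU_le2 r i hri, EU_pd r i hri, EU_pd r i hri, hf, map_zero, zero_sub,
      map_neg, smul_eq_mul, smul_eq_mul]
    have h2 : pderiv (le1 j s) (if t = r then pderiv (le1 j' i) f else 0) =
        if t = r then pderiv (le1 j s) (pderiv (le1 j' i) f) else 0 := by
      split_ifs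
      · rfl
      · exact map_zero _
    rw [h2]
    split_ifs <;> ring
  have h2 : ∀ s : Fin k, EU r i (∑ t, X (le2 s t) * pderiv (le1 j s) (pderiv (le1 j' t) f)) =
      ((if s = i then ∑ t, X (le2 r t) * pderiv (le1 j s) (pderiv (le1 j' t) f) else 0) +
        X (le2 s r) * pderiv (le1 j s) (pderiv (le1 j' i) f)) -
      ((if s = r then ∑ t, X (le2 s t) * pderiv (le1 j i) (pderiv (le1 j' t) f) else 0) +
        X (le2 s r) * pderiv (le1 j s) (pderiv (le1 j' i) f)) := by
    intro s
    rw [map_sum, Finset.sum_congr rfl fun t _ => h1 s t, Finset.sum_sub_distrib,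
      Finset.sum_add_distrib, Finset.sum_add_distrib, Finset.sum_ite_eq' Finset.univ i,
      if_pos (Finset.mem_univ i), Finset.sum_ite_eq' Finset.univ r, if_pos (Finset.mem_univ r)]
    split_ifs <;> simp
  rw [Finset.sum_congr rfl fun s _ => h2 s]
  rw [Finset.sum_sub_distrib, Finset.sum_add_distrib, Finset.sum_add_distrib,
    Finset.sum_ite_eq' Finset.univ i, if_pos (Finset.mem_univ i),
    Finset.sum_ite_eq' Finset.univ r, if_pos (Finset.mem_univ r)]
  ring

lemma coeff_X_mul_ne (l : Lt k) (f : Po k) (v : Lt k →₀ ℕ) (h : coeff v (X l * f) ≠ 0) :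
    ∃ u, v = u + Finsupp.single l 1 ∧ coeff u f ≠ 0 := by
  classical
  rw [coeff_X_mul'] at h
  split_ifs at h with h1
  · refine ⟨v - Finsupp.single l 1, ?_, h⟩
    rw [tsub_add_cancel_of_le]
    rw [Finsupp.single_le_iff]
    exact Nat.one_le_iff_ne_zero.2 (Finsupp.mem_support_iff.1 h1)
  · exact absurd rfl h

lemma D2_support (j j' : ℕ) (f : Po k) (v : Lt k →₀ ℕ) (h : coeff v (D2 j j' f) ≠ 0) :
    ∃ (u : Lt k →₀ ℕ) (s t : Fin k), v = u + Finsupp.single (le2 s t) 1 ∧
      coeff (u + Finsupp.single (le1 j s) 1 + Finsupp.single (le1 j' t) 1) f ≠ 0 := by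
  rw [D2_apply, coeff_sum] at h
  obtain ⟨s, _, hs⟩ := Finset.exists_ne_zero_of_sum_ne_zero h
  rw [coeff_sum] at hs
  obtain ⟨t, _, ht⟩ := Finset.exists_ne_zero_of_sum_ne_zero hs
  obtain ⟨u, hu, h2⟩ := coeff_X_mul_ne _ _ _ ht
  refine ⟨u, s, t, hu, ?_⟩
  rw [coeff_pderiv, coeff_pderiv] at h2
  exact left_ne_zero_of_mul (left_ne_zero_of_mul h2)

/-! ### The image of a component -/

/-- The component `c`, letters `(1, 0)` removed, shifted. -/
noncomputable def Hc (c : ℕ × ℕ) : Po k →ₗ[ℂ] Po k :=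
  (rename (R := ℂ) (sh (k := k))).toLinearMap ∘ₗ divL (Finsupp.single (1, 0) c.1) ∘ₗ
    weightedHomogeneousComponent wt c

lemma Hc_apply (c : ℕ × ℕ) (f : Po k) : Hc c f =
    rename sh (divL (Finsupp.single (1, 0) c.1) (weightedHomogeneousComponent wt c f)) := rfl

lemma EU_Hc (r i : Fin k) (c : ℕ × ℕ) (f : Po k) (hf : EU r i f = 0) :
    EU r i (Hc c f) = 0 := by
  classical
  rw [Hc_apply, EU_eq] at *
  rw [mv_rename sh (fun p : Lt k => (p.2 i : ℂ)) (rp r i) _ _ (fun _ => rfl) (sh_rp r i),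
    divL_kill, map_zero]
  · simp
  · intro v hv
    rw [coeff_weightedHomogeneousComponent] at hv
    split_ifs at hv with h
    · rw [Finsupp.single_le_iff, ← wt_fst, h]
    · exact absurd rfl hv
  · exact comp_kill wt _ _ (fun l hl => wt_rp r i l hl) f hf c

lemma Hc_support (c : ℕ × ℕ) (f : Po k) (v' : Lt k →₀ ℕ) (h : coeff v' (Hc c f) ≠ 0) :
    ∃ u : Lt k →₀ ℕ, v' = u.mapDomain sh ∧ coeff (Finsupp.single (1, 0) c.1 + u) f ≠ 0 ∧
      Finsupp.weight wt (Finsupp.single (1, 0) c.1 + u) = c := by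
  classical
  rw [Hc_apply] at h
  obtain ⟨u, hu, h2⟩ := coeff_rename_ne_zero _ _ _ h
  rw [coeff_divL, coeff_weightedHomogeneousComponent] at h2
  split_ifs at h2 with h3
  · exact ⟨u, hu.symm, h2, h3⟩
  · exact absurd rfl h2

/-- What is known about the monomials of `Hc c f`. -/
lemma Hc_facts {tau : Fin k → ℕ} {Z : ℕ} (c : ℕ × ℕ) (f : Po k) (hf : f ∈ UH (gEL tau (Z : ℤ)))
    (v' : Lt k →₀ ℕ) (h : coeff v' (Hc c f) ≠ 0) :
    (∀ p ∈ v'.support, 3 ≤ sz p ∧ 1 ≤ p.1 ∧ p.1 ≤ Z + 2) ∧ xs v' + c.1 = Z + ln v' + c.2 ∧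
      (∀ i, us v' i = tau i) ∧ c.2 ≤ ∑ i, tau i ∧ c.1 ≤ Z := by
  classical
  obtain ⟨u, hu, h1, h2⟩ := Hc_support c f v' h
  obtain ⟨g1, g2, g3⟩ := (mem_UH.1 hf).1 _ h1
  set v := Finsupp.single (1, 0) c.1 + u with hv
  have hZ : xs v = Z := by exact_mod_cast g2
  have hu0 : u (1, 0) = 0 := by
    have h3 : v (1, 0) = c.1 := by rw [← wt_fst, h2]
    rw [hv, Finsupp.add_apply, Finsupp.single_eq_same] at h3
    omega
  have hx : xs v = c.1 + xs u := by rw [hv, xs_add, xs_single, mul_one]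
  have hc : cl v = c.2 := by
    unfold cl
    rw [h2]
  have hc2 : cl v = cl u := by
    rw [hv, cl_add, cl_single, if_pos rfl, mul_zero, zero_add]
  have hus : ∀ i, us v i = us u i := by
    intro i
    rw [hv, us_add, us_single]
    simp
  refine ⟨?_, ?_, ?_, ?_, ?_⟩
  · intro p hp
    rw [hu] at hp
    obtain ⟨q, hq, rfl⟩ := Finset.mem_image.1 (Finsupp.mapDomain_support hp)
    have hq0 : u q ≠ 0 := Finsupp.mem_support_iff.1 hq
    have hqv : q ∈ v.support := by
      rw [Finsupp.mem_support_iff, hv, Finsupp.add_apply]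
      omega
    have hs := g1 q hqv
    have hne : q ≠ (1, 0) := by
      rintro rfl
      exact hq0 hu0
    have hle : q.1 ≤ Z := by
      have h4 := le_xs v q
      have h5 : 1 ≤ v q := Nat.one_le_iff_ne_zero.2 (Finsupp.mem_support_iff.1 hqv)
      nlinarith
    unfold sz sh
    by_cases hq2 : q.2 = 0
    · rw [if_pos hq2]
      have h6 : sz q = q.1 := by
        unfold sz
        rw [hq2]
        simp
      have h7 : q.1 ≠ 1 := by
        intro h7
        exact hne (Prod.ext h7 hq2)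
      refine ⟨?_, ?_, ?_⟩
      · show 3 ≤ q.1 + 1 + _
        omega
      · show 1 ≤ q.1 + 1
        omega
      · show q.1 + 1 ≤ Z + 2
        omega
    · rw [if_neg hq2]
      have h6 := one_le_sum hq2
      refine ⟨?_, ?_, ?_⟩
      · show 3 ≤ q.1 + 2 + ∑ i, q.2 i
        omega
      · show 1 ≤ q.1 + 2
        omega
      · show q.1 + 2 ≤ Z + 2
        omega
  · rw [hu, xs_sh, ln_sh]
    omega
  · intro i
    rw [hu, us_sh, ← hus, g3]
  · rw [← hc]
    refine (cl_le v).trans (le_of_eq (Finset.sum_congr rfl fun i _ => g3 i))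
  · omega


/-! ### Injectivity -/

lemma D1_inj {H : Po k} (h0 : ∀ v, coeff v H ≠ 0 → ∀ p ∈ v.support, 1 ≤ p.1) {j : ℕ}
    (h : D1 j H = 0) (a : Fin k → ℕ) (ha : 2 ≤ ∑ i, a i) : pderiv ((j, a) : Lt k) H = 0 := by
  have key : ⁅(pderiv ((0, a) : Lt k) : Derivation ℂ (Po k) (Po k)), D1 j⁆ =
      pderiv ((j, a) : Lt k) := by
    apply MvPolynomial.derivation_ext
    intro l
    rw [Derivation.commutator_apply]
    have e1 : D1 j (pderiv ((0, a) : Lt k) (X l : Po k)) = 0 := by
      rw [pderiv_X]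
      by_cases h1 : ((0, a) : Lt k) = l
      · rw [h1, Pi.single_eq_same]
        exact Derivation.map_one_eq_zero _
      · rw [Pi.single_eq_of_ne' h1]
        exact map_zero _
    rw [e1, sub_zero]
    unfold D1
    rw [mv_X, C_mul', Derivation.map_smul, pderiv_X, pderiv_X]
    by_cases h1 : l = (j, a)
    · subst h1
      rw [if_pos ⟨rfl, ha⟩, Pi.single_eq_same, Pi.single_eq_same, one_smul]
    · rw [Pi.single_eq_of_ne h1]
      by_cases h2 : l.2 = a
      · have h3 : l.1 ≠ j := fun h3 => h1 (Prod.ext h3 h2)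
        rw [if_neg (fun h4 => h3 h4.1), zero_smul]
      · have h3 : ((0, l.2) : Lt k) ≠ (0, a) := by
          intro h3
          apply h2
          have h4 : ((0, l.2) : Lt k).2 = ((0, a) : Lt k).2 := by rw [h3]
          exact h4
        rw [Pi.single_eq_of_ne h3, smul_zero]
  have h1 := Derivation.congr_fun key H
  rw [Derivation.commutator_apply, h, map_zero] at h1
  have h2 : pderiv ((0, a) : Lt k) H = 0 := by
    ext v
    rw [coeff_pderiv, coeff_zero]
    have h3 : coeff (v + Finsupp.single ((0, a) : Lt k) 1) H = 0 := by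
      by_contra hne
      have h4 := h0 _ hne (0, a) (by
        rw [Finsupp.mem_support_iff, Finsupp.add_apply, Finsupp.single_eq_same]
        omega)
      exact absurd h4 (Nat.not_succ_le_zero 0)
    rw [h3, zero_mul]
  rw [h2, map_zero, sub_zero] at h1
  exact h1.symm

lemma pd0 {H : Po k} (h0 : ∀ v, coeff v H ≠ 0 → ∀ p ∈ v.support, 1 ≤ p.1) (a : Fin k → ℕ) :
    pderiv ((0, a) : Lt k) H = 0 := by
  ext v
  rw [coeff_pderiv, coeff_zero]
  have h3 : coeff (v + Finsupp.single ((0, a) : Lt k) 1) H = 0 := by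
    by_contra hne
    have h4 := h0 _ hne (0, a) (by
      rw [Finsupp.mem_support_iff, Finsupp.add_apply, Finsupp.single_eq_same]
      omega)
    exact absurd h4 (Nat.not_succ_le_zero 0)
  rw [h3, zero_mul]

lemma D2_inj {H : Po (k + 1)} (h0 : ∀ v, coeff v H ≠ 0 → ∀ p ∈ v.support, 1 ≤ p.1) {j j' : ℕ}
    (h : D2 j j' H = 0) : pderiv (le1 j 0) (pderiv (le1 j' 0) H) = 0 := by
  have h1 : pderiv (le2 0 0) (D2 j j' H) = 0 := by rw [h, map_zero]
  rw [D2_apply, map_sum] at h1
  have hz : ∀ s t : Fin (k + 1), pderiv (le2 0 0) (pderiv (le1 j s) (pderiv (le1 j' t) H)) = 0 := by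
    intro s t
    have hcomm : ∀ (x y : Lt (k + 1)) (g : Po (k + 1)),
        pderiv x (pderiv y g) = pderiv y (pderiv x g) := by
      intro x y g
      ext v
      rw [coeff_pderiv, coeff_pderiv, coeff_pderiv, coeff_pderiv]
      have e1 : v + Finsupp.single x 1 + Finsupp.single y 1 =
          v + Finsupp.single y 1 + Finsupp.single x 1 := add_right_comm _ _ _
      rw [e1]
      by_cases hxy : x = y
      · rw [hxy]
      · have e2 : (v + Finsupp.single x 1 : Lt (k + 1) →₀ ℕ) y = v y := by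
          rw [Finsupp.add_apply, Finsupp.single_eq_of_ne (Ne.symm hxy), add_zero]
        have e3 : (v + Finsupp.single y 1 : Lt (k + 1) →₀ ℕ) x = v x := by
          rw [Finsupp.add_apply, Finsupp.single_eq_of_ne hxy, add_zero]
        rw [e2, e3]
        ring
    rw [hcomm, hcomm (le2 0 0)]
    have h2 : pderiv (le2 0 0 : Lt (k + 1)) H = 0 := pd0 h0 _
    rw [h2, map_zero, map_zero]
  have h2 : ∀ s t : Fin (k + 1), pderiv (le2 0 0)
      (X (le2 s t) * pderiv (le1 j s) (pderiv (le1 j' t) H)) =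
      if s = 0 then (if t = 0 then pderiv (le1 j s) (pderiv (le1 j' t) H) else 0) else 0 := by
    intro s t
    rw [Derivation.leibniz, hz, smul_zero, zero_add, pderiv_X, smul_eq_mul]
    by_cases h3 : s = 0 ∧ t = 0
    · obtain ⟨rfl, rfl⟩ := h3
      rw [Pi.single_eq_same, if_pos rfl, if_pos rfl, mul_one]
    · have h4 : le2 s t ≠ le2 0 0 := by
        intro h4
        apply h3
        have h5 : (le2 s t).2 0 = (le2 0 0 : Lt (k + 1)).2 0 := by rw [h4]
        unfold le2 at h5
        simp only [Pi.add_apply, Pi.single_eq_same] at h5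
        by_cases hs : s = 0
        · by_cases ht : t = 0
          · exact ⟨hs, ht⟩
          · rw [Pi.single_eq_of_ne (Ne.symm ht)] at h5
            subst hs
            rw [Pi.single_eq_same] at h5
            omega
        · rw [Pi.single_eq_of_ne (Ne.symm hs)] at h5
          by_cases ht : t = 0
          · subst ht
            rw [Pi.single_eq_same] at h5
            omega
          · rw [Pi.single_eq_of_ne (Ne.symm ht)] at h5
            omega
      rw [Pi.single_eq_of_ne h4, mul_zero]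
      by_cases hs : s = 0
      · rw [if_pos hs, if_neg (fun ht => h3 ⟨hs, ht⟩)]
      · rw [if_neg hs]
  have h3 : ∀ s : Fin (k + 1), pderiv (le2 0 0)
      (∑ t, X (le2 s t) * pderiv (le1 j s) (pderiv (le1 j' t) H)) =
      if s = 0 then pderiv (le1 j s) (pderiv (le1 j' 0) H) else 0 := by
    intro s
    rw [map_sum, Finset.sum_congr rfl fun t _ => h2 s t]
    split_ifs with hs
    · rw [Finset.sum_ite_eq' Finset.univ (0 : Fin (k + 1)), if_pos (Finset.mem_univ _)]
    · exact Finset.sum_const_zero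
  rw [Finset.sum_congr rfl fun s _ => h3 s,
    Finset.sum_ite_eq' Finset.univ (0 : Fin (k + 1)), if_pos (Finset.mem_univ _)] at h1
  exact h1

/-- The joint injectivity. -/
lemma joint {H : Po (k + 1)} {J : ℕ}
    (h0 : ∀ v, coeff v H ≠ 0 → ∀ p ∈ v.support, 1 ≤ p.1 ∧ p.1 ≤ J)
    (h2 : ∀ v, coeff v H ≠ 0 → 2 ≤ us v 0) (hD1 : ∀ j ≤ J, D1 j H = 0)
    (hD2 : ∀ j ≤ J, ∀ j' ≤ J, D2 j j' H = 0) : H = 0 := by
  have h00 : ∀ v, coeff v H ≠ 0 → ∀ p ∈ v.support, 1 ≤ p.1 := fun v hv p hp => (h0 v hv p hp).1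
  ext v
  rw [coeff_zero]
  by_contra hv
  have hsub : ∀ (l : Lt (k + 1)), v l ≠ 0 →
      v - Finsupp.single l 1 + Finsupp.single l 1 = v := by
    intro l hl
    apply tsub_add_cancel_of_le
    rw [Finsupp.single_le_iff]
    exact Nat.one_le_iff_ne_zero.2 hl
  by_cases hA : ∃ l ∈ v.support, 2 ≤ ∑ i, l.2 i
  · obtain ⟨l, hl, hl2⟩ := hA
    have h3 := D1_inj h00 (hD1 l.1 (h0 v hv l hl).2) l.2 hl2
    have h4 := congrArg (coeff (v - Finsupp.single l 1)) h3
    rw [coeff_pderiv, coeff_zero] at h4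
    have h5 : v - Finsupp.single l 1 + Finsupp.single ((l.1, l.2) : Lt (k + 1)) 1 = v :=
      hsub l (Finsupp.mem_support_iff.1 hl)
    rw [h5] at h4
    rcases mul_eq_zero.1 h4 with h6 | h6
    · exact hv h6
    · exact absurd h6 (Nat.cast_add_one_ne_zero _)
  · push Not at hA
    -- a letter with `e_0`
    have pick : ∀ u : Lt (k + 1) →₀ ℕ, 1 ≤ us u 0 → (∀ l, u l ≠ 0 → v l ≠ 0) →
        ∃ j, u (le1 j 0) ≠ 0 := by
      intro u hu huv
      by_contra hc
      push Not at hc
      have : us u 0 = 0 := by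
        unfold us
        rw [Finsupp.sum]
        apply Finset.sum_eq_zero
        intro l hl
        have hl' := Finsupp.mem_support_iff.1 hl
        have h3 := hA l (Finsupp.mem_support_iff.2 (huv l hl'))
        have h4 : l.2 0 = 0 := by
          by_contra h4
          have h5 : l.2 = Pi.single 0 1 := by
            funext t
            by_cases ht : t = 0
            · subst ht
              rw [Pi.single_eq_same]
              have h6 : l.2 0 ≤ ∑ i, l.2 i :=
                Finset.single_le_sum (fun _ _ => Nat.zero_le _) (Finset.mem_univ _)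
              omega
            · rw [Pi.single_eq_of_ne ht]
              have h6 : ∑ i ∈ ({0, t} : Finset (Fin (k + 1))), l.2 i ≤ ∑ i, l.2 i :=
                Finset.sum_le_sum_of_subset (Finset.subset_univ _)
              rw [Finset.sum_pair (Ne.symm ht)] at h6
              omega
          apply hl'
          have h6 : l = le1 l.1 0 := Prod.ext rfl h5
          rw [h6]
          exact hc l.1
        rw [h4, mul_zero]
      omega
    obtain ⟨j', hj'⟩ := pick v (by have := h2 v hv; omega) (fun l hl => hl)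
    set u := v - Finsupp.single (le1 j' (0 : Fin (k + 1))) 1 with hu
    have huv := hsub _ hj'
    rw [← hu] at huv
    have hus : us v 0 = us u 0 + 1 := by
      rw [← huv, us_add, us_single]
      simp
    obtain ⟨j, hj⟩ := pick u (by have := h2 v hv; omega) (by
      intro l hl hl0
      apply hl
      rw [hu, Finsupp.tsub_apply, hl0, zero_tsub])
    have hjv : v (le1 j 0) ≠ 0 := by
      intro hl0
      apply hj
      rw [hu, Finsupp.tsub_apply, hl0, zero_tsub]
    have b1 := (h0 v hv _ (Finsupp.mem_support_iff.2 hj')).2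
    have b2 := (h0 v hv _ (Finsupp.mem_support_iff.2 hjv)).2
    have h3 := D2_inj h00 (hD2 j b2 j' b1)
    have h4 := congrArg (coeff (u - Finsupp.single (le1 j (0 : Fin (k + 1))) 1)) h3
    rw [coeff_pderiv, coeff_zero, coeff_pderiv] at h4
    have h5 : u - Finsupp.single (le1 j (0 : Fin (k + 1))) 1 +
        Finsupp.single (le1 j (0 : Fin (k + 1))) 1 = u := by
      apply tsub_add_cancel_of_le
      rw [Finsupp.single_le_iff]
      exact Nat.one_le_iff_ne_zero.2 hj
    rw [h5, huv] at h4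
    rcases mul_eq_zero.1 h4 with h6 | h6
    · rcases mul_eq_zero.1 h6 with h7 | h7
      · exact hv h7
      · exact absurd h7 (Nat.cast_add_one_ne_zero _)
    · exact absurd h6 (Nat.cast_add_one_ne_zero _)

/-! ### The maps -/

/-- The index of the maps after the component. -/
abbrev Ix (Z : ℕ) : Type := Fin (Z + 3) ⊕ (Fin (Z + 3) × Fin (Z + 3))

/-- The maps. -/
noncomputable def Op (Z y m0 : ℕ) (c : ℕ × ℕ) : Ix Z → (Po k →ₗ[ℂ] Po k)
  | Sum.inl j => (LinearMap.mulLeft ℂ
      (X (m0 + 1 + c.1 + (j : ℕ) - y - Z - c.2, 0) : Po k)) ∘ₗ (D1 (j : ℕ)).toLinearMap ∘ₗ Hc c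
  | Sum.inr (j, j') => (LinearMap.mulLeft ℂ
      (X (m0 + c.1 + (j : ℕ) + (j' : ℕ) - y - Z - c.2, 0) : Po k)) ∘ₗ D2 (j : ℕ) (j' : ℕ) ∘ₗ Hc c

lemma EU_X0 (r i : Fin k) (q : ℕ) : EU r i (X (q, 0) : Po k) = 0 := by
  rw [EU_eq, mv_X]
  simp

lemma gBB_fill {tau : Fin k → ℕ} {y m0 : ℕ} {u : Lt k →₀ ℕ} {a : Fin k → ℕ} {q : ℕ}
    (hu : ∀ p ∈ u.support, 3 ≤ sz p) (ha : 2 ≤ ∑ i, a i) (hq : 3 ≤ q)
    (h1 : xs u + q + y = m0 + ln u + 2) (h2 : ∀ i, us u i + a i = tau i) :
    gSL tau y m0 (u + Finsupp.single (0, a) 1 + Finsupp.single (q, 0) 1) := by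
  classical
  have hmem : ∀ p ∈ (u + Finsupp.single ((0, a) : Lt k) 1 +
      Finsupp.single ((q, 0) : Lt k) 1).support, p ∈ u.support ∨ p = (0, a) ∨ p = (q, 0) := by
    intro p hp
    rcases Finset.mem_union.1 (Finsupp.support_add hp) with h | h
    · rcases Finset.mem_union.1 (Finsupp.support_add h) with h' | h'
      · exact Or.inl h'
      · exact Or.inr (Or.inl (Finset.mem_singleton.1 (Finsupp.support_single_subset h')))
    · exact Or.inr (Or.inr (Finset.mem_singleton.1 (Finsupp.support_single_subset h)))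
  refine ⟨⟨?_, ?_, ?_⟩, (0, a), ?_, rfl⟩
  · intro p hp
    rcases hmem p hp with h | rfl | rfl
    · have h3 := hu p h
      exact ⟨by omega, fun h4 => by omega⟩
    · refine ⟨?_, fun _ => rfl⟩
      unfold sz
      show 2 ≤ 0 + ∑ i, a i
      omega
    · have h3 : sz ((q, 0) : Lt k) = q := by
        unfold sz
        simp
      rw [h3]
      exact ⟨by omega, fun h4 => by omega⟩
  · rw [xs_add, xs_add, xs_single, xs_single, ln_add, ln_add, ln_single, ln_single]
    show xs u + 1 * 0 + 1 * q + y = _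
    omega
  · intro i
    rw [us_add, us_add, us_single, us_single, ← h2 i]
    show us u i + 1 * a i + 1 * 0 = _
    omega
  · rw [Finsupp.mem_support_iff, Finsupp.add_apply, Finsupp.add_apply, Finsupp.single_eq_same]
    omega

lemma Op_mem {tau : Fin k → ℕ} {Z y m0 : ℕ} (hZ : Z + y + ∑ i, tau i + 4 ≤ m0) (c : ℕ × ℕ)
    (x : Ix Z) (f : Po k) (hf : f ∈ UH (gEL tau (Z : ℤ))) :
    Op Z y m0 c x f ∈ UH (gSL tau y m0) := by
  classical
  have hE : ∀ r i : Fin k, r < i → EU r i (Hc c f) = 0 := fun r i h =>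
    EU_Hc r i c f ((mem_UH.1 hf).2 r i h)
  rcases x with j | ⟨j, j'⟩
  · show X _ * D1 (j : ℕ) (Hc c f) ∈ _
    refine ⟨?_, ?_⟩
    · intro v hv
      obtain ⟨v1, rfl, hv1⟩ := coeff_X_mul_ne _ _ _ hv
      unfold D1 at hv1
      obtain ⟨u, l, hl, rfl, hu⟩ := mv_support _ _ _ _ hv1
      have hl' : l.1 = j ∧ 2 ≤ ∑ i, l.2 i := by
        by_contra h
        rw [if_neg h] at hl
        exact hl rfl
      obtain ⟨f1, f2, f3, f4, f5⟩ := Hc_facts c f hf _ hu
      rw [xs_add, xs_single, ln_add, ln_single, hl'.1, one_mul] at f2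
      apply gBB_fill
      · intro p hp
        refine (f1 p ?_).1
        rw [Finsupp.mem_support_iff] at hp ⊢
        rw [Finsupp.add_apply]
        omega
      · exact hl'.2
      · omega
      · omega
      · intro i
        have h3 := f3 i
        rw [us_add, us_single] at h3
        omega
    · intro r i h
      rw [Derivation.leibniz, EU_X0, smul_zero, add_zero, EU_D1, hE r i h, map_zero, smul_zero]
  · show X _ * D2 (j : ℕ) (j' : ℕ) (Hc c f) ∈ _
    refine ⟨?_, ?_⟩
    · intro v hv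
      obtain ⟨v1, rfl, hv1⟩ := coeff_X_mul_ne _ _ _ hv
      obtain ⟨u, s, t, rfl, hu⟩ := D2_support _ _ _ _ hv1
      obtain ⟨f1, f2, f3, f4, f5⟩ := Hc_facts c f hf _ hu
      rw [xs_add, xs_add, xs_single, xs_single, ln_add, ln_add, ln_single, ln_single] at f2
      have f2' : xs u + 1 * (j : ℕ) + 1 * (j' : ℕ) + c.1 = Z + (ln u + 1 + 1) + c.2 := f2
      apply gBB_fill
      · intro p hp
        refine (f1 p ?_).1
        rw [Finsupp.mem_support_iff] at hp ⊢
        rw [Finsupp.add_apply, Finsupp.add_apply]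
        omega
      · have h3 : ∑ i, (Pi.single s 1 + Pi.single t 1 : Fin k → ℕ) i = 2 := by
          simp only [Pi.add_apply]
          rw [Finset.sum_add_distrib, Finset.sum_pi_single', Finset.sum_pi_single']
          simp
        exact h3.ge
      · omega
      · omega
      · intro i
        have h3 := f3 i
        rw [us_add, us_add, us_single, us_single] at h3
        rw [← h3]
        show us u i + ((Pi.single s 1 : Fin k → ℕ) i + (Pi.single t 1 : Fin k → ℕ) i) =
          us u i + 1 * (Pi.single s 1 : Fin k → ℕ) i + 1 * (Pi.single t 1 : Fin k → ℕ) i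
        ring
    · intro r i h
      rw [Derivation.leibniz, EU_X0, smul_zero, add_zero, EU_D2 r i h.ne _ _ _ (hE r i h),
        smul_zero]

lemma Op_inj {tau : Fin (k + 1) → ℕ} {Z y m0 : ℕ} (h2 : 2 ≤ tau 0) (f : Po (k + 1))
    (hf : f ∈ UH (gEL tau (Z : ℤ)))
    (h : ∀ c : ℕ × ℕ, c.1 ≤ Z → c.2 ≤ ∑ i, tau i → ∀ x : Ix Z, Op Z y m0 c x f = 0) : f = 0 := by
  classical
  ext v
  rw [coeff_zero]
  by_contra hv
  obtain ⟨g1, g2, g3⟩ := (mem_UH.1 hf).1 v hv
  set c := Finsupp.weight wt v with hc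
  have hc1 : c.1 = v (1, 0) := wt_fst v
  have hxs : xs v = Z := by exact_mod_cast g2
  have hcZ : c.1 ≤ Z := by
    have h3 := le_xs v (1, 0)
    rw [← hc1, hxs] at h3
    simpa using h3
  have hcT : c.2 ≤ ∑ i, tau i :=
    (cl_le v).trans (le_of_eq (Finset.sum_congr rfl fun i _ => g3 i))
  have hle : Finsupp.single (1, 0) c.1 ≤ v := by
    rw [Finsupp.single_le_iff, hc1]
  have hH : coeff ((v - Finsupp.single (1, 0) c.1).mapDomain sh) (Hc c f) ≠ 0 := by
    rw [Hc_apply, coeff_rename_mapDomain _ sh_inj, coeff_divL, add_tsub_cancel_of_le hle,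
      coeff_weightedHomogeneousComponent, if_pos hc.symm]
    exact hv
  apply hH
  rw [joint (J := Z + 2) (H := Hc c f), coeff_zero]
  · intro v' hv' p hp
    exact ((Hc_facts c f hf v' hv').1 p hp).2
  · intro v' hv'
    rw [(Hc_facts c f hf v' hv').2.2.1 0]
    exact h2
  · intro j hj
    have h3 : X _ * D1 j (Hc c f) = 0 := h c hcZ hcT (Sum.inl ⟨j, by omega⟩)
    exact (mul_eq_zero.1 h3).resolve_left (X_ne_zero _)
  · intro j hj j' hj'
    have h3 : X _ * D2 j j' (Hc c f) = 0 :=
      h c hcZ hcT (Sum.inr (⟨j, by omega⟩, ⟨j', by omega⟩))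
    exact (mul_eq_zero.1 h3).resolve_left (X_ne_zero _)

end Vale.Agent.P181.GN.H89
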